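import Vale.Agent.P277.H371.G.FinCore
import Vale.Agent.P277.H884.T.Tail0
import Vale.Agent.P277.H615.X.Iface

/-!
# P277, T6: the assembly from CONTRS and P7, with resolutions of infinitely many of the spaces or
infinitely many flipped loci of dimension two
-/

set_option maxSynthPendingDepth 3

open scoped Manifold ContDiff Topology
open Vale.Agent.P272.K Vale.Agent.P285.H281.FD Vale.Agent.P267.H175 Set Filter

noncomputable section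

namespace Vale.Agent.P277.H371.T

open Vale.Agent.P277 Vale.Agent.P277.T3 H615 H371.C H371.G H884.T

/-- The assembly from CONTRS, with P7 for the sequence. -/
theorem fin_coreD (hC : H615.X.StContrS) {Y : Type} [TopologicalSpace Y] [T2Space Y] [CompactSpace Y]
    [ChartedSpace (Cm 4) Y] [IsManifold 𝓘(ℂ, Cm 4) ω Y] {k s : ℕ} {M : Fin (k + s) → Bd Y}
    {m : Fin (k + s) → ℕ} {ρ : Fin (k + s) → ℝ} {H : Fin s → Type}
    [∀ i, TopologicalSpace (H i)] [∀ i, T2Space (H i)] [∀ i, CompactSpace (H i)]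
    [∀ i, ConnectedSpace (H i)] [∀ i, ChartedSpace (Cm 3) (H i)]
    [∀ i, IsManifold 𝓘(ℂ, Cm 3) ω (H i)] {ι : ∀ i, H i → Y}
    {sg : ∀ i : Fin s, (M (Fin.natAdd k i)).ι → Y → ℂ} {W : CSp} {X Z : ℕ → CSp} {r : ℕ}
    {v₀ : Y → W.pt} {p : W.pt → (X 0).pt} {P : Bd W.pt} {G : Fin r → Set Y}
    {f : ∀ j, (X j).pt → (Z j).pt} {f' : ∀ j, (X (j + 1)).pt → (Z j).pt}
    {L : ∀ j, Fin (k + s) → Bd (X j).pt} {c : ℕ → Fin (k + s) → ℕ}
    {σ : ∀ j, ∀ i : Fin s, (L j (Fin.natAdd k i)).ι → (X j).pt → ℂ}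
    {n : Fin (k + s) → Fin r → ℤ} {t : ∀ e, (L 0 e).ι →
      ((((Bd.can 4 Y).pow (m e)).mul (M e)).pow (c 0 e)).ι → Y → ℂ}
    (hlbM : ∀ e, IsLB 4 (M e)) (hbd : ∀ i, IsBd (ι i) (M (Fin.natAdd k i)) (sg i))
    (hres : T2.IsRes v₀ p P G) (hne : ∀ i, ¬ range (ι i) ⊆ ⋃ l, G l)
    (hc1 : ∀ j e, 1 ≤ c j e)
    (hcmp : T2.IsCmpV (fun y => p (v₀ y)) (L 0)
      (fun e => (((Bd.can 4 Y).pow (m e)).mul (M e)).pow (c 0 e)) G n t)
    (hcorr : ∀ i a ch b y, y ∉ ⋃ l, G l → p (v₀ y) ∈ (L 0 (Fin.natAdd k i)).U a → At ch y →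
      y ∈ (M (Fin.natAdd k i)).U b →
        σ 0 i a (p (v₀ y)) * t (Fin.natAdd k i) a (ch, b) y = sg i b y ^ c 0 (Fin.natAdd k i))
    (hflip : ∀ j, IsFlipB (X j) (Z j) (X (j + 1)) (f j) (f' j) (Amin (f j)) (L j) (L (j + 1))
      (c j) (c (j + 1)) ρ (σ j) (σ (j + 1)))
    {I' : Set (Fin s)}
    (hP : ∀ (O : ℕ → Set Y) (v : ∀ j, Y → (X j).pt), IsSeq X Z f f' (fun j => Amin (f j)) O v →
      O 0 = (⋃ l, G l)ᶜ → (v 0 = fun y => p (v₀ y)) → ∀ β : ℝ,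
      (∀ μ : Fin s, μ ∉ I' → β < ρ (Fin.natAdd k μ) →
        ∃ J, ∀ j ≥ J, ThinM 3 1 (ι μ ⁻¹' O j \ ι μ ⁻¹' O (j + 1))) →
      ∃ J, ∀ j ≥ J, DimLe (X (j + 1)) 1 {x | x ∈ f' j ⁻¹' Amin (f j) ∧
        (β ≤ 0 ∨ ∃ ν : Fin s, β ≤ ρ (Fin.natAdd k ν) ∧
          x ∈ zer (L (j + 1) (Fin.natAdd k ν)) (σ (j + 1) ν))})
    (hr : ∀ n, ∃ j ≥ n, HasRes (X j) ∨ ¬ DimLe (X (j + 1)) 1 {x | f' j x ∈ Amin (f j)}) :
    False := by
  have hsm : ∀ j, IsSmall (X j) (Z j) (f j) (Amin (f j)) := fun j => (hflip j).flip.small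
  have hsm' : ∀ j, IsSmall (X (j + 1)) (Z j) (f' j) (Amin (f j)) := fun j =>
    (hflip j).flip.small'
  have hseq := isSeq_sq hsm hsm' hres.emb' (by
    refine (hres.dim).mono ?_
    intro x hx
    obtain ⟨w, rfl⟩ := hres.psurj x
    obtain ⟨y, rfl⟩ := hres.surj w
    refine ⟨y, ?_, rfl⟩
    by_contra hy
    exact hx ⟨y, hy, rfl⟩)
  set O : ℕ → Set Y := fun j => (sq f hsm' (⋃ l, G l)ᶜ (fun y => p (v₀ y)) j).1 with hOd
  set v : ∀ j, Y → (X j).pt :=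
    fun j => (sq f hsm' (⋃ l, G l)ᶜ (fun y => p (v₀ y)) j).2 with hvd
  have hO0 : O 0 = (⋃ l, G l)ᶜ := rfl
  have hv0 : v 0 = fun y => p (v₀ y) := rfl
  have hflip' : ∀ j, ∃ (L₁ : Bd (X j).pt) (L₂ : Bd (X (j + 1)).pt),
      IsFlip (X j) (Z j) (X (j + 1)) (f j) (f' j) (Amin (f j)) L₁ L₂ := by
    intro j
    obtain ⟨p, q, s, d, a, -, -, h1, -⟩ := exists_flipD (hflip j).flip (hc1 j)
    exact ⟨_, _, h1.flip none⟩
  choose L₁ L₂ hL using hflip'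
  have hl : ∀ y : Y, ∃ e : Chart 4 Y, At e y := fun y =>
    ⟨chartAt (Cm 4) y, chart_mem_atlas _ y, mem_chart_source _ y⟩
  -- the surfaces of `H μ` are eventually not contracted
  have key : ∀ μ : Fin s, μ ∉ I' → ∃ J, ∀ j ≥ J, ThinM 3 1 (ι μ ⁻¹' O j \ ι μ ⁻¹' O (j + 1)) := by
    have hwf : WellFounded fun a b : Fin s => ρ (Fin.natAdd k b) < ρ (Fin.natAdd k a) := by
      have : IsTrans (Fin s) fun a b : Fin s => ρ (Fin.natAdd k b) < ρ (Fin.natAdd k a) :=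
        ⟨fun a b c h1 h2 => h2.trans h1⟩
      have : IsIrrefl (Fin s) fun a b : Fin s => ρ (Fin.natAdd k b) < ρ (Fin.natAdd k a) :=
        ⟨fun a h1 => lt_irrefl _ h1⟩
      exact Finite.wellFounded_of_trans_of_irrefl _
    intro μ
    induction μ using hwf.induction with
    | _ μ ih =>
      intro hμ
      obtain ⟨J, hJ⟩ := hP O v hseq hO0 hv0 (ρ (Fin.natAdd k μ)) fun μ' hm' hμ' => ih μ' hμ' hm'
      refine hC Y W X Z r v₀ p P G hres f f' (fun j => Amin (f j)) L₁ L₂ hL O v hseq hO0 hv0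
        (H μ) (ι μ) (hbd μ).sub ?_ (fun j => zer (L j (Fin.natAdd k μ)) (σ j μ))
        (isStrG hl hlbM hbd hc1 hcmp hcorr hflip hseq hO0 hv0 μ) 
        ⟨J, fun j hj => ?_⟩
      · obtain ⟨_, ⟨x, rfl⟩, hx⟩ := not_subset.1 (hne μ)
        exact ⟨x, hx⟩
      · exact (hJ j hj).mono fun x hx => ⟨hx.1, Or.inr ⟨μ, le_rfl, hx.2⟩⟩
  obtain ⟨J, hJ⟩ := hP O v hseq hO0 hv0 0 fun μ hμ _ => key μ hμ
  have hthin : ∀ j ≥ J, DimLe (X (j + 1)) 1 {x | f' j x ∈ Amin (f j)} := fun j hj =>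
    (hJ j hj).mono fun x hx => ⟨hx, Or.inl le_rfl⟩
  have hr' : ∀ n, ∃ j ≥ n, HasRes (X j) := by
    intro n
    obtain ⟨j, hj, hj'⟩ := hr (max n J)
    exact ⟨j, (le_max_left n J).trans hj,
      hj'.resolve_right fun h => h (hthin j ((le_max_right n J).trans hj))⟩
  obtain ⟨j, hj, hj'⟩ := tail0 hL hr' J
  refine hj' ((hJ j hj).mono ?_)
  rintro x ⟨x', h1, h2⟩
  refine ⟨?_, Or.inl le_rfl⟩
  by_contra h3
  exact h2 ((hsm' j).inj _ _ h3 h1)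

end Vale.Agent.P277.H371.T
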