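import Vale.Agent.P277.Stmts33
import Vale.Agent.P277.H884.T.T6HF
import Vale.Agent.P277.H371.T.FinCoreD

/-!
# P277, (T6I): (T6H) with resolutions or infinitely many flipped surfaces
-/

set_option maxSynthPendingDepth 3

open scoped Manifold ContDiff Topology
open Vale.Agent.P272.K Vale.Agent.P285.H281.FD Vale.Agent.P267.H175 Set Filter Metric

noncomputable section

namespace Vale.Agent.P277.H371.T

open Vale.Agent.P277 Vale.Agent.P277.T3 H615 H371.C H29.E H884.T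

/-- (T6I) -/
theorem stT6I : T3.StT6I := by
  classical
  intro Y _ _ _ _ _ χ hχ k s M hM hnef m hm hm0 ρ hρ hsum H _ _ _ _ _ _ ι sg hbd hdisj W X Z r
    v p P G hres hne f f' A L c hc n hn hflip a ha
  have hp1 := stT6H_fst hχ hM hnef hm hm0 hρ hsum hbd hdisj hres hne hc hn hflip ha
  obtain ⟨L', c', σ, t, hc', hcmp, hcorr, hcc, hfl⟩ :=
    H371.G.wrap_core (ι := ι) hM hm0 hbd hres hc hn hflip
  have h' : IsPG χ M m ρ ι sg v p P G f f' A L' c' σ n t :=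
    ⟨hχ, hM, hnef, hm, hm0, hρ, hsum, hbd, hdisj, hres, hne, hc', hcmp, hcorr, hfl⟩
  have ha' : ∀ l, a l = ∑ e, ρ e * n e l / c' 0 e := by
    intro l
    simp only [hcc]
    exact ha l
  set Hh : Set Y := {y | p (v y) ∈ hit f f'} with hHh
  have hvc : Continuous fun y => p (v y) := hres.cont.comp (continuousOn_univ.1 hres.emb.cont)
  refine ⟨hp1, fun hr hcon => ?_⟩
  obtain ⟨J₁, hcon⟩ := hcon
  obtain ⟨J₃, hp1⟩ := hp1
  have h := h'.amin
  have hneY : Nonempty Y := by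
    have h3 := (h.flip 0).flip.ninj
    rw [Function.Injective] at h3
    push Not at h3
    obtain ⟨x, -⟩ := h3
    obtain ⟨w, -⟩ := hres.psurj x
    obtain ⟨y, -⟩ := hres.surj w
    exact ⟨y⟩
  -- the closed analytic sets which contain the hit points
  set Hd : Fin r → Prop := fun l => ZD (fun y => p (v y)) (hit f f') (G l) with hHd
  have hex : ∀ l, ∃ D : Set Y, IsClosed D ∧ (∀ y, T3.IsAnAt 4 D y) ∧
      (¬ Hd l → G l ∩ Hh ⊆ D ∧ ¬ G l ⊆ D) ∧ D ⊆ G l := by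
    intro l
    by_cases hl : Hd l
    · exact ⟨∅, isClosed_empty, fun y => H60.Z.isAnAt_of_notMem (by simp),
        fun h => (h hl).elim, empty_subset _⟩
    · have hl' := hl
      rw [hHd] at hl'
      simp only [ZD] at hl'
      push Not at hl'
      obtain ⟨C, hC, hC1, y₁, hy₁, hC2⟩ := hl'
      refine ⟨G l ∩ {y | p (v y) ∈ C}, (hres.closed l).inter ((isClosed_of_isAn hC).preimage hvc),
        fun y => isAnAt_inter (H60.Z.isAnAt_hyp (hres.hyp l) (hres.closed l) y)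
          (isAnAt_pre hres hC y), fun _ => ⟨fun y hy => ⟨hy.1, hC1 y hy.1 hy.2⟩, fun h3 =>
          hC2 (h3 hy₁).2⟩, inter_subset_left⟩
  choose D hDc hDan hDG hDsub using hex
  set K₀ : Set (Fin r) := {l | (-1 < a l ∧ a l < 0) ∧ ¬ Hd l} with hK₀
  set K : Set (Fin r) := {l | l ∈ K₀ ∧ ∀ l' ∈ K₀, l' ≠ l → ¬ G l ⊆ G l'} with hK
  set S : Finset (Fin r) := Finset.univ.filter (· ∈ K) with hS
  have hmS : ∀ l, l ∈ S ↔ l ∈ K := fun l => by simp [hS]
  set C : Set Y := ⋃ l ∈ S, D l with hC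
  have hCc : IsClosed C := isClosed_biUnion_finset fun l _ => hDc l
  have hCan : ∀ y, T3.IsAnAt 4 C y := fun y => H60.Z.isAnAt_biUnion S fun l _ => hDan l y
  have hGC : ∀ l ∈ K, ¬ G l ⊆ C := by
    intro l hl
    refine not_sub_biUnion (hres.hyp l) (hres.conn l) ?_ hDc hDan S fun l' hl' h3 => ?_
    · rw [nonempty_iff_ne_empty]
      intro h3
      refine (hDG l hl.1.2).2 ?_
      rw [h3]
      exact empty_subset _
    · by_cases hll : l' = l
      · subst hll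
        exact (hDG l' hl.1.2).2 h3
      · exact hl.2 l' ((hmS l').1 hl').1 hll (h3.trans (hDsub l'))
  have hCd : ∀ l ∈ K, G l ⊆ closure (G l \ C) := fun l hl =>
    sub_closure_an (hres.hyp l) (hres.conn l) hCc hCan (hGC l hl)
  refine fin_coreD H615.X.stContrS h.lb h.bd h.res h.ne h.c1 h.cmp h.corr h.flip
    (H335.MM.stP7M Y χ k s M m ρ H ι sg W X Z r v p P G f f' _ L' c' σ n t h
      {l | a l < 0 ∧ l ∉ K} K
      {i | 1 ≤ ρ (Fin.natAdd k i)} (fun l hl hlK => ?_) (fun l hl => ?_) (fun i hi => not_le.1 hi)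
      C hCc hCd (fun l hl => ?_) (max J₁ J₃) (fun j hj => ?_) fun j hj => ?_) hr
  · rw [← ha']
    by_contra h3
    exact hl ⟨not_le.1 h3, hlK⟩
  · rw [← ha']; exact hl.1.1.1
  · exact H335.MM.stSurf (hres.hyp l) (hres.closed l) hCc hCan (hCd l hl)
  · refine (((hcon j (by omega)).2).union (hp1 j (by omega))).mono ?_
    rintro x ⟨g1, g2⟩
    by_cases g4 : x ∈ Tot (Cor (⋃ l, G l) (fun y => p (v y)) f f' (j + 1))
        (closure ((bad ι G {l | a l < -1} {i | 1 < ρ (Fin.natAdd k i)} ∪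
          cross ι G {l | -1 ≤ a l ∧ a l < 0}) ∩ Hh))
    · exact Or.inl ⟨g1, g2, g4⟩
    · exact Or.inr ⟨g1, g2, g4⟩
  · refine (hcon j (by omega)).1.mono fun x hx => badPt_mono ?_ (cor_dense h' j).1 hx
    intro φ γ w hφ hγ hS' hB hfr
    have h3 : γ w ∈ Hh := hin_hit h' j φ γ w hφ hγ hS' hfr
    refine ⟨?_, h3⟩
    rcases hB with (hB | hB) | hB
    · rcases hB with hB | hB
      · obtain ⟨l, hl, h5⟩ := mem_iUnion₂.1 hB
        by_cases h6 : a l ≤ -1 ∨ Hd l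
        · exact Or.inl (Or.inl (mem_iUnion₂.2 ⟨l, ⟨hl.1, h6⟩, h5⟩))
        · rw [not_or] at h6
          have h7 : l ∈ K₀ := ⟨⟨not_le.1 h6.1, hl.1⟩, h6.2⟩
          have h8 : ∃ l' ∈ K₀, l' ≠ l ∧ G l ⊆ G l' := by
            by_contra h9
            push Not at h9
            exact hl.2 ⟨h7, h9⟩
          obtain ⟨l', h9, h10, h11⟩ := h8
          exact Or.inr ⟨l, h7.1, h5, Or.inl ⟨l', h9.1, h10, h11 h5⟩⟩
      · exact Or.inl (Or.inr hB)
    · obtain ⟨l, hl, hy, ⟨l', hl', hne', hy'⟩ | ⟨i, hi⟩⟩ := hB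
      · exact Or.inr ⟨l, hl.1.1, hy, Or.inl ⟨l', hl'.1.1, hne', hy'⟩⟩
      · exact Or.inr ⟨l, hl.1.1, hy, Or.inr ⟨i, hi⟩⟩
    · obtain ⟨l, hl, h5⟩ := mem_iUnion₂.1 hB
      exact (h5.2 (mem_iUnion₂.2 ⟨l, (hmS l).2 hl, (hDG l hl.1.2).1 ⟨h5.1, h3⟩⟩)).elim

end Vale.Agent.P277.H371.T
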